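import Vale.Agent.P264.H403.Loc

/-!
# P264 / H403 / Asm : assembly of the localised theorem, from the one-dimensional theorem and the
inverse of the realisation
-/

open Set Filter Topology
open scoped ContDiff ENNReal

noncomputable section

namespace P264.Geo

/-- The one-dimensional theorem: near every admissible `V` there are admissible data, equal to `V`
on `[d,1]`, with arbitrarily short flow. -/
def OneD (n : ℕ) (V : ℝ → ℝ) : Prop :=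
  ∃ K : ℝ, 0 ≤ K ∧ ∀ d : ℝ, 0 < d → d ≤ 1 / 2 → ∀ ε : ℝ, 0 < ε → ∃ T : ℝ, 0 < T ∧ T ≤ ε ∧
    ∃ U₀ : ℝ → ℝ, P264.B.IsInit U₀ ∧ (∀ x ∈ Icc d 1, U₀ x = V x) ∧
      (∀ x ∈ Icc d 1, deriv U₀ x = deriv V x) ∧ (∀ x ∈ Icc (0 : ℝ) 1, |U₀ x - V x| ≤ K * d) ∧
      ∀ U φ : ℝ → ℝ → ℝ, ¬ P264.B.IsFlowU n T U₀ U φ

/-- The inverse of the realisation, for one metric. -/
def HasSymp (n : ℕ) (h : Cm (n + 1) → ℝ) (V : ℝ → ℝ) : Prop :=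
  P264.B.IsInit V ∧ ∀ Z, Z ≠ 0 → h Z = R.h0 V Z

/-- Localised short life spans in the hyperplane class. -/
theorem loc_of {n : ℕ} (hn : 2 ≤ n) {h₁ : Cm (n + 1) → ℝ} {V : ℝ → ℝ}
    (hV : HasSymp n h₁ V) (h1 : OneD n V) {ε : ℝ} (hε : 0 < ε) :
    ∃ h₀ : Cm (n + 1) → ℝ, IsKahler n h₀ ∧ Inv h₀ ∧
      (∀ Z, Z ≠ 0 → ε * ‖Z 0‖ ^ 2 ≤ ∑ i : Fin n, ‖Z i.succ‖ ^ 2 → h₀ Z = h₁ Z) ∧
      (∀ Z, Z ≠ 0 → |Real.log (h₀ Z / h₁ Z)| ≤ ε) ∧ Tmax n h₀ < ENNReal.ofReal ε := by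
  obtain ⟨hVi, hVh⟩ := hV
  obtain ⟨K, hK0, h1⟩ := h1
  obtain ⟨d₀, hd₀, hd₀2, hd₀x⟩ := R.exists_xs_ge hVi hε
  set d : ℝ := min d₀ (ε / (K + 1)) with hd
  have hd0 : 0 < d := lt_min hd₀ (by positivity)
  have hKd : K * d ≤ ε := by
    have h2 : d ≤ ε / (K + 1) := min_le_right _ _
    have h3 : K * d ≤ (K + 1) * (ε / (K + 1)) := by
      have : 0 ≤ d := hd0.le
      nlinarith
    have h4 : (K + 1) * (ε / (K + 1)) = ε := by field_simp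
    linarith
  obtain ⟨T, hT, hTε, U, hU, hU1, hU2, hU3, hno⟩ :=
    h1 d hd0 ((min_le_left _ _).trans hd₀2) (ε / 2) (by positivity)
  refine ⟨R.h0 U, R.isKahler_h0 hU, R.h0_inv U, ?_, ?_, ?_⟩
  · intro Z hZ hle
    rw [hVh Z hZ]
    refine R.h0_eq_of_eqOn hU hVi (fun x hx => ⟨hU1 x hx, hU2 x hx⟩) hZ ?_
    exact (min_le_left _ _).trans (hd₀x _ (R.AB_mem hZ) hle)
  · intro Z hZ
    rw [hVh Z hZ, Real.log_div (R.h0_pos U hZ).ne' (R.h0_pos V hZ).ne']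
    exact (R.abs_log_h0 hU hVi (fun x hx => hU3 x hx) hZ).trans hKd
  · refine (R.tmax_h0_le hn hU hT hno).trans_lt ?_
    rw [ENNReal.ofReal_lt_ofReal_iff hε]
    linarith

/-- Localised short life spans in every Kähler class. -/
theorem loc_in {a : ℝ} (ha : 0 < a)
    (hloc : ∀ h₁ : Cm 9 → ℝ, IsKahler 8 h₁ → Inv h₁ → ∀ ε : ℝ, 0 < ε →
      ∃ h₀ : Cm 9 → ℝ, IsKahler 8 h₀ ∧ Inv h₀ ∧
        (∀ Z, Z ≠ 0 → ε * ‖Z 0‖ ^ 2 ≤ ∑ i : Fin 8, ‖Z i.succ‖ ^ 2 → h₀ Z = h₁ Z) ∧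
        (∀ Z, Z ≠ 0 → |Real.log (h₀ Z / h₁ Z)| ≤ ε) ∧ Tmax 8 h₀ < ENNReal.ofReal ε)
    {H₁ : Cm 9 → ℝ} (hK : IsKahlerIn 8 a H₁) (hI : Inv H₁) {ε : ℝ} (hε : 0 < ε) :
    ∃ H₀ : Cm 9 → ℝ, IsKahlerIn 8 a H₀ ∧ Inv H₀ ∧
      (∀ Z, Z ≠ 0 → ε * ‖Z 0‖ ^ 2 ≤ ∑ i : Fin 8, ‖Z i.succ‖ ^ 2 → H₀ Z = H₁ Z) ∧
      (∀ Z, Z ≠ 0 → |Real.log (H₀ Z / H₁ Z)| ≤ ε) ∧ TmaxIn 8 a H₀ < ENNReal.ofReal ε := by
  have ha' : 0 < a⁻¹ := inv_pos.2 ha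
  have hK1 : IsKahlerIn 8 1 fun Z => H₁ Z ^ a⁻¹ := by
    have := hK.rpow ha'
    rwa [inv_mul_cancel₀ ha.ne'] at this
  have hI1 : Inv fun Z => H₁ Z ^ a⁻¹ := by
    intro Z W hZ hW h1 h2
    show H₁ Z ^ a⁻¹ = H₁ W ^ a⁻¹
    rw [hI Z W hZ hW h1 h2]
  set δ : ℝ := min ε (min (ε / a) (ε / a ^ 2)) with hδ
  have hδ0 : 0 < δ := lt_min hε (lt_min (by positivity) (by positivity))
  have hδ1 : δ ≤ ε := min_le_left _ _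
  have hδ2 : a * δ ≤ ε := by
    have : δ ≤ ε / a := (min_le_right _ _).trans (min_le_left _ _)
    rw [le_div_iff₀ ha] at this
    linarith
  have hδ3 : a ^ 2 * δ ≤ ε := by
    have : δ ≤ ε / a ^ 2 := (min_le_right _ _).trans (min_le_right _ _)
    rw [le_div_iff₀ (by positivity)] at this
    linarith
  obtain ⟨h₀, hK0, hI0, h1, h2, h3⟩ := hloc _ (isKahlerIn_one.1 hK1) hI1 δ hδ0
  have hK0' : IsKahlerIn 8 1 h₀ := isKahlerIn_one.2 hK0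
  have hroot : ∀ Z, Z ≠ 0 → (H₁ Z ^ a⁻¹) ^ a = H₁ Z := by
    intro Z hZ
    rw [← Real.rpow_mul (hK.pos Z hZ).le, inv_mul_cancel₀ ha.ne', Real.rpow_one]
  refine ⟨fun Z => h₀ Z ^ a, ?_, ?_, ?_, ?_, ?_⟩
  · have := hK0'.rpow ha
    rwa [mul_one] at this
  · intro Z W hZ hW e1 e2
    show h₀ Z ^ a = h₀ W ^ a
    rw [hI0 Z W hZ hW e1 e2]
  · intro Z hZ hle
    have hle' : δ * ‖Z 0‖ ^ 2 ≤ ∑ i : Fin 8, ‖Z i.succ‖ ^ 2 :=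
      (mul_le_mul_of_nonneg_right hδ1 (by positivity)).trans hle
    show h₀ Z ^ a = H₁ Z
    rw [h1 Z hZ hle', hroot Z hZ]
  · intro Z hZ
    have hp0 := hK0.pos Z hZ
    have hp1 := hK.pos Z hZ
    have e : Real.log (h₀ Z ^ a / H₁ Z) = a * Real.log (h₀ Z / H₁ Z ^ a⁻¹) := by
      rw [Real.log_div (Real.rpow_pos_of_pos hp0 _).ne' hp1.ne',
        Real.log_div hp0.ne' (Real.rpow_pos_of_pos hp1 _).ne', Real.log_rpow hp0,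
        Real.log_rpow hp1]
      field_simp
    show |Real.log (h₀ Z ^ a / H₁ Z)| ≤ ε
    rw [e, abs_mul, abs_of_pos ha]
    exact (mul_le_mul_of_nonneg_left (h2 Z hZ) ha.le).trans hδ2
  · have e1 := tmaxIn_rpow (n := 8) (a := 1) (H₀ := h₀) ha hK0'.pos
    rw [mul_one, tmaxIn_one] at e1
    rw [e1]
    have ha2 : (0 : ℝ) < a ^ 2 := by positivity
    have ha2' : ENNReal.ofReal (a ^ 2) ≠ 0 := by
      rw [Ne, ENNReal.ofReal_eq_zero, not_le]; exact ha2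
    calc ENNReal.ofReal (a ^ 2) * Tmax 8 h₀ < ENNReal.ofReal (a ^ 2) * ENNReal.ofReal δ :=
          ENNReal.mul_lt_mul_right ha2' ENNReal.ofReal_ne_top h3
      _ = ENNReal.ofReal (a ^ 2 * δ) := (ENNReal.ofReal_mul ha2.le).symm
      _ ≤ ENNReal.ofReal ε := ENNReal.ofReal_le_ofReal hδ3

end P264.Geo

end
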