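import Vale.Agent.P264.Geo.Core

/-!
# P264 / H403 / Defs : Kähler metrics and the Calabi flow on `ℙⁿ` in an arbitrary Kähler class

`H²(ℙⁿ;ℝ)` is spanned by the hyperplane class `[i∂∂̄ log |Z|²]`, so the Kähler classes are its
multiples by `a > 0`, and the Kähler forms in the class `a` are the forms `i∂∂̄ log H` with
`H : ℂⁿ⁺¹ ∖ 0 → (0,∞)` smooth and `H(cZ) = |c|^{2a} H(Z)`.  For `a = 1` the definitions below are
those of `P264.Geo.IsKahler`, `IsFlowUpTo`, `Tmax`.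
-/

open scoped ContDiff ComplexOrder ENNReal

noncomputable section

namespace P264.Geo

/-- `i∂∂̄ log H` is a smooth Kähler form on `ℙⁿ` in the class `a` times the hyperplane class. -/
structure IsKahlerIn (n : ℕ) (a : ℝ) (H : Cm (n + 1) → ℝ) : Prop where
  smooth : ContDiffOn ℝ ∞ H {Z | Z ≠ 0}
  pos : ∀ Z, Z ≠ 0 → 0 < H Z
  homog : ∀ (c : ℂ) Z, Z ≠ 0 → c ≠ 0 → H (c • Z) = ‖c‖ ^ (2 * a) * H Z
  posDef : ∀ k z, (cHess (loc H k) z).PosDef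

/-- `φ` is a smooth Calabi flow on `ℙⁿ` on `[0,T)`, `0 < T ≤ ∞`, starting from `ω₀ = i∂∂̄ log H₀` in
the class `a` (normalised by an additive constant `c`; the usual choice is `c = S̄`):
`ω(t) = ω₀ + i∂∂̄φ(t) = i∂∂̄ log (H₀ exp φ(t)) > 0`, `φ(0) = 0`, `∂φ/∂t = S(ω(t)) - c`. -/
structure IsFlowIn (n : ℕ) (a : ℝ) (H₀ : Cm (n + 1) → ℝ) (c : ℝ) (T : ℝ≥0∞)
    (φ : ℝ → Cm (n + 1) → ℝ) : Prop where
  smooth : ContDiffOn ℝ ∞ (fun p : ℝ × Cm (n + 1) => φ p.1 p.2)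
    ({t | 0 ≤ t ∧ ENNReal.ofReal t < T} ×ˢ {Z | Z ≠ 0})
  homog : ∀ t, 0 ≤ t → ENNReal.ofReal t < T → ∀ (b : ℂ) Z, Z ≠ 0 → b ≠ 0 → φ t (b • Z) = φ t Z
  init : ∀ Z, Z ≠ 0 → φ 0 Z = 0
  kahler : ∀ t, 0 ≤ t → ENNReal.ofReal t < T → IsKahlerIn n a fun Z => H₀ Z * Real.exp (φ t Z)
  flow : ∀ t, 0 ≤ t → ENNReal.ofReal t < T → ∀ k z, HasDerivWithinAt (fun s => φ s (chart k z))
    (scalG (cHess (loc (fun Z => H₀ Z * Real.exp (φ t Z)) k)) z - c)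
    {t | 0 ≤ t ∧ ENNReal.ofReal t < T} t

/-- The maximal existence time `T_max ∈ [0,∞]` of the smooth Calabi flow from `i∂∂̄ log H₀` in the
class `a`. -/
def TmaxIn (n : ℕ) (a : ℝ) (H₀ : Cm (n + 1) → ℝ) : ℝ≥0∞ :=
  sSup {T | ∃ c φ, IsFlowIn n a H₀ c T φ}

end P264.Geo

end
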