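import Vale.Agent.P264.H403.Defs

/-!
# P264 / H403 / Scale : scaling of the Calabi flow
-/

open Set
open scoped ContDiff ComplexOrder ENNReal

noncomputable section

namespace P264.Geo

variable {n m : ℕ}

theorem dz_const_mul (j : Fin m) (r : ℝ) (F : Cm m → ℂ) (z : Cm m) :
    dz j (fun y => (r : ℂ) * F y) z = (r : ℂ) * dz j F z := by
  have h : fderiv ℝ (fun y => (r : ℂ) * F y) z = r • fderiv ℝ F z := by
    have : (fun y => (r : ℂ) * F y) = r • F := by
      funext y; simp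
    rw [this, fderiv_const_smul_field]; rfl
  unfold dz
  rw [h]
  simp only [smul_apply, Complex.real_smul]
  ring

theorem dzb_const_mul (j : Fin m) (r : ℝ) (F : Cm m → ℂ) (z : Cm m) :
    dzb j (fun y => (r : ℂ) * F y) z = (r : ℂ) * dzb j F z := by
  have h : fderiv ℝ (fun y => (r : ℂ) * F y) z = r • fderiv ℝ F z := by
    have : (fun y => (r : ℂ) * F y) = r • F := by
      funext y; simp
    rw [this, fderiv_const_smul_field]; rfl
  unfold dzb
  rw [h]
  simp only [smul_apply, Complex.real_smul]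
  ring

theorem cHess_const_mul (r : ℝ) (f : Cm m → ℝ) (z : Cm m) :
    cHess (fun y => r * f y) z = (r : ℂ) • cHess f z := by
  ext j k
  simp only [cHess, Matrix.of_apply, Matrix.smul_apply, smul_eq_mul]
  have h : (dzb k fun y => ((r * f y : ℝ) : ℂ)) = fun z => (r : ℂ) * dzb k (fun y => (f y : ℂ)) z := by
    funext w
    rw [← dzb_const_mul]
    congr 1
    funext y
    push_cast
    ring
  rw [h, dz_const_mul]

theorem cHess_const_add (r : ℝ) (f : Cm m → ℝ) (z : Cm m) :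
    cHess (fun y => r + f y) z = cHess f z := by
  ext j k
  simp only [cHess, Matrix.of_apply]
  have h : (dzb k fun y => ((r + f y : ℝ) : ℂ)) = dzb k (fun y => (f y : ℂ)) := by
    funext w
    unfold dzb
    have h1 : fderiv ℝ (fun y => ((r + f y : ℝ) : ℂ)) w = fderiv ℝ (fun y => (f y : ℂ)) w := by
      have : (fun y => ((r + f y : ℝ) : ℂ)) = fun y => (r : ℂ) + (f y : ℂ) := by
        funext y; push_cast; rfl
      rw [this, fderiv_const_add]
    rw [h1]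
  rw [h]

/-- scalar curvature under scaling of the metric -/
theorem scalG_smul {r : ℝ} (hr : 0 < r) (g : Cm m → Matrix (Fin m) (Fin m) ℂ)
    (hg : ∀ y, (g y).PosDef) (z : Cm m) :
    scalG (fun y => (r : ℂ) • g y) z = scalG g z / r := by
  have hdet : (fun y => Real.log ((r : ℂ) • g y).det.re) =
      fun y => (m : ℝ) * Real.log r + Real.log (g y).det.re := by
    funext y
    have h1 : 0 < (g y).det.re := by
      have := (hg y).det_pos
      exact (Complex.lt_def.1 this).1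
    rw [Matrix.det_smul, Fintype.card_fin]
    have h2 : ((r : ℂ) ^ m * (g y).det).re = r ^ m * (g y).det.re := by
      rw [← Complex.ofReal_pow, Complex.re_ofReal_mul]
    rw [h2, Real.log_mul (pow_pos hr m).ne' h1.ne', Real.log_pow]
  have hrc : (r : ℂ) ≠ 0 := by exact_mod_cast hr.ne'
  have hinv : ((r : ℂ) • g z)⁻¹ = (r : ℂ)⁻¹ • (g z)⁻¹ := by
    have hu : IsUnit (g z).det := by
      rw [isUnit_iff_ne_zero]
      exact (hg z).det_pos.ne'
    have := Matrix.inv_smul' (g z) (Units.mk0 (r : ℂ) hrc) hu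
    simpa [Units.smul_def] using this
  unfold scalG
  rw [hdet, cHess_const_add, hinv, Matrix.smul_mul, Matrix.trace_smul, smul_eq_mul,
    ← Complex.ofReal_inv, Complex.re_ofReal_mul]
  field_simp

theorem loc_rpow {H : Cm (n + 1) → ℝ} (hpos : ∀ Z, Z ≠ 0 → 0 < H Z) (r : ℝ) (k : Fin (n + 1)) :
    loc (fun Z => H Z ^ r) k = fun z => r * loc H k z := by
  funext z
  unfold loc
  have hne : (chart k z : Cm (n + 1)) ≠ 0 := by
    intro h
    have h2 := congrFun h k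
    simp [chart] at h2
  rw [Real.log_rpow (hpos _ hne)]

/-- scaling of a Kähler form -/
theorem IsKahlerIn.rpow {a r : ℝ} {H : Cm (n + 1) → ℝ} (hH : IsKahlerIn n a H) (hr : 0 < r) :
    IsKahlerIn n (r * a) fun Z => H Z ^ r where
  smooth := hH.smooth.rpow_const_of_ne fun Z hZ => (hH.pos Z hZ).ne'
  pos := fun Z hZ => Real.rpow_pos_of_pos (hH.pos Z hZ) r
  homog := fun c Z hZ hc => by
    rw [hH.homog c Z hZ hc, Real.mul_rpow (Real.rpow_nonneg (norm_nonneg c) _) (hH.pos Z hZ).le,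
      ← Real.rpow_mul (norm_nonneg c)]
    ring_nf
  posDef := fun k z => by
    rw [loc_rpow hH.pos, cHess_const_mul]
    have hr' : (0 : ℂ) < (r : ℂ) := by exact_mod_cast hr
    exact (hH.posDef k z).smul hr'

theorem scal_rpow {a r : ℝ} {H : Cm (n + 1) → ℝ} (hH : IsKahlerIn n a H) (hr : 0 < r)
    (k : Fin (n + 1)) (z : Cm n) :
    scalG (cHess (loc (fun Z => H Z ^ r) k)) z = scalG (cHess (loc H k)) z / r := by
  have h : cHess (loc (fun Z => H Z ^ r) k) = fun y => (r : ℂ) • cHess (loc H k) y := by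
    funext y
    rw [loc_rpow hH.pos, cHess_const_mul]
  rw [h, scalG_smul hr _ (hH.posDef k)]

theorem isKahlerIn_congr {a : ℝ} {H H' : Cm (n + 1) → ℝ} (h : ∀ Z, Z ≠ 0 → H Z = H' Z)
    (hH : IsKahlerIn n a H) : IsKahlerIn n a H' where
  smooth := hH.smooth.congr fun Z hZ => (h Z hZ).symm
  pos := fun Z hZ => (h Z hZ) ▸ hH.pos Z hZ
  homog := fun c Z hZ hc => by
    rw [← h Z hZ, ← h (c • Z) (smul_ne_zero hc hZ)]
    exact hH.homog c Z hZ hc
  posDef := fun k z => by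
    have : loc H' k = loc H k := by
      funext z
      unfold loc
      rw [h]
      intro h0
      have h2 := congrFun h0 k
      simp [chart] at h2
    rw [this]
    exact hH.posDef k z

theorem loc_congr {H H' : Cm (n + 1) → ℝ} (h : ∀ Z, Z ≠ 0 → H Z = H' Z) (k : Fin (n + 1)) :
    loc H k = loc H' k := by
  funext z
  unfold loc
  rw [h]
  intro h0
  have h2 := congrFun h0 k
  simp [chart] at h2

/-- scaling of a flow: from the class `a` to the class `r a` -/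
theorem IsFlowIn.scale {a r c : ℝ} {T : ℝ≥0∞} {H₀ : Cm (n + 1) → ℝ} {φ : ℝ → Cm (n + 1) → ℝ}
    (hr : 0 < r) (hpos : ∀ Z, Z ≠ 0 → 0 < H₀ Z) (hf : IsFlowIn n a H₀ c T φ) :
    IsFlowIn n (r * a) (fun Z => H₀ Z ^ r) (c / r) (ENNReal.ofReal (r ^ 2) * T)
      fun t Z => r * φ (t / r ^ 2) Z := by
  have hr2 : 0 < r ^ 2 := by positivity
  have hr2' : ENNReal.ofReal (r ^ 2) ≠ 0 := by
    rw [Ne, ENNReal.ofReal_eq_zero, not_le]; exact hr2
  have hdom : ∀ t, 0 ≤ t → ENNReal.ofReal t < ENNReal.ofReal (r ^ 2) * T →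
      0 ≤ t / r ^ 2 ∧ ENNReal.ofReal (t / r ^ 2) < T := by
    intro t ht hT
    refine ⟨by positivity, ?_⟩
    rw [ENNReal.ofReal_div_of_pos hr2]
    refine ENNReal.div_lt_of_lt_mul ?_
    rwa [mul_comm]
  have hfun : ∀ t Z, Z ≠ 0 → H₀ Z ^ r * Real.exp (r * φ (t / r ^ 2) Z) =
      (H₀ Z * Real.exp (φ (t / r ^ 2) Z)) ^ r := by
    intro t Z hZ
    rw [Real.mul_rpow (hpos Z hZ).le (Real.exp_pos _).le, ← Real.exp_mul]
    ring_nf
  refine ⟨?_, ?_, ?_, ?_, ?_⟩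
  · refine contDiffOn_const.mul ?_
    have h1 : ContDiffOn ℝ ∞ (fun p : ℝ × Cm (n + 1) => (p.1 / r ^ 2, p.2))
        ({t | 0 ≤ t ∧ ENNReal.ofReal t < ENNReal.ofReal (r ^ 2) * T} ×ˢ {Z | Z ≠ 0}) :=
      ((contDiff_fst.div_const _).prodMk contDiff_snd).contDiffOn
    exact hf.smooth.comp h1 fun p hp => ⟨hdom p.1 hp.1.1 hp.1.2, hp.2⟩
  · intro t ht hT b Z hZ hb
    obtain ⟨h1, h2⟩ := hdom t ht hT
    show r * φ (t / r ^ 2) (b • Z) = r * φ (t / r ^ 2) Z
    rw [hf.homog _ h1 h2 b Z hZ hb]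
  · intro Z hZ
    show r * φ (0 / r ^ 2) Z = 0
    rw [zero_div, hf.init Z hZ, mul_zero]
  · intro t ht hT
    obtain ⟨h1, h2⟩ := hdom t ht hT
    exact isKahlerIn_congr (fun Z hZ => (hfun t Z hZ).symm) ((hf.kahler _ h1 h2).rpow hr)
  · intro t ht hT k z
    obtain ⟨h1, h2⟩ := hdom t ht hT
    have e1 : scalG (cHess (loc (fun Z => H₀ Z ^ r * Real.exp (r * φ (t / r ^ 2) Z)) k)) z =
        scalG (cHess (loc (fun Z => H₀ Z * Real.exp (φ (t / r ^ 2) Z)) k)) z / r := by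
      rw [loc_congr (hfun t) k]
      exact scal_rpow (hf.kahler _ h1 h2) hr k z
    rw [e1]
    have h3 := hf.flow _ h1 h2 k z
    have h4 : HasDerivWithinAt (fun s : ℝ => s / r ^ 2) (1 / r ^ 2)
        {t | 0 ≤ t ∧ ENNReal.ofReal t < ENNReal.ofReal (r ^ 2) * T} t :=
      ((hasDerivAt_id t).div_const _).hasDerivWithinAt
    have h5 := (h3.scomp t h4 (fun s hs => hdom s hs.1 hs.2)).const_mul r
    refine h5.congr_deriv ?_
    simp only [smul_eq_mul]
    field_simp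

theorem isKahlerIn_one {h : Cm (n + 1) → ℝ} : IsKahlerIn n 1 h ↔ IsKahler n h := by
  constructor
  · intro H
    refine ⟨H.smooth, H.pos, fun c Z hZ hc => ?_, H.posDef⟩
    rw [H.homog c Z hZ hc]
    norm_num
  · intro H
    refine ⟨H.smooth, H.pos, fun c Z hZ hc => ?_, H.posDef⟩
    rw [H.homog c Z hZ hc]
    norm_num

theorem tmaxIn_one (h : Cm (n + 1) → ℝ) : TmaxIn n 1 h = Tmax n h := by
  unfold TmaxIn Tmax
  congr 1
  ext T
  constructor
  · rintro ⟨c, φ, hf⟩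
    exact ⟨c, φ, hf.smooth, hf.homog, hf.init, fun t h1 h2 => isKahlerIn_one.1 (hf.kahler t h1 h2),
      hf.flow⟩
  · rintro ⟨c, φ, hf⟩
    exact ⟨c, φ, hf.smooth, hf.homog, hf.init, fun t h1 h2 => isKahlerIn_one.2 (hf.kahler t h1 h2),
      hf.flow⟩

/-- The maximal existence time scales by `r²`. -/
theorem tmaxIn_rpow_ge {a r : ℝ} {H₀ : Cm (n + 1) → ℝ} (hr : 0 < r)
    (hpos : ∀ Z, Z ≠ 0 → 0 < H₀ Z) :
    ENNReal.ofReal (r ^ 2) * TmaxIn n a H₀ ≤ TmaxIn n (r * a) fun Z => H₀ Z ^ r := by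
  unfold TmaxIn
  rw [ENNReal.mul_sSup]
  refine iSup₂_le ?_
  rintro T ⟨c, φ, hf⟩
  exact le_sSup ⟨_, _, hf.scale hr hpos⟩

theorem isFlowIn_congr {a c : ℝ} {T : ℝ≥0∞} {H H' : Cm (n + 1) → ℝ} {φ : ℝ → Cm (n + 1) → ℝ}
    (h : ∀ Z, Z ≠ 0 → H Z = H' Z) (hf : IsFlowIn n a H c T φ) : IsFlowIn n a H' c T φ where
  smooth := hf.smooth
  homog := hf.homog
  init := hf.init
  kahler := fun t h1 h2 => isKahlerIn_congr (fun Z hZ => by rw [h Z hZ]) (hf.kahler t h1 h2)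
  flow := fun t h1 h2 k z => by
    have e : loc (fun Z => H' Z * Real.exp (φ t Z)) k = loc (fun Z => H Z * Real.exp (φ t Z)) k :=
      loc_congr (fun Z hZ => by rw [h Z hZ]) k
    rw [e]
    exact hf.flow t h1 h2 k z

theorem tmaxIn_rpow {a r : ℝ} {H₀ : Cm (n + 1) → ℝ} (hr : 0 < r)
    (hpos : ∀ Z, Z ≠ 0 → 0 < H₀ Z) :
    TmaxIn n (r * a) (fun Z => H₀ Z ^ r) = ENNReal.ofReal (r ^ 2) * TmaxIn n a H₀ := by
  refine le_antisymm ?_ (tmaxIn_rpow_ge hr hpos)
  have h1 := tmaxIn_rpow_ge (n := n) (a := r * a) (r := r⁻¹) (H₀ := fun Z => H₀ Z ^ r)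
    (inv_pos.2 hr) (fun Z hZ => Real.rpow_pos_of_pos (hpos Z hZ) r)
  have h2 : r⁻¹ * (r * a) = a := by field_simp
  have h3 : TmaxIn n a (fun Z => (H₀ Z ^ r) ^ r⁻¹) ≤ TmaxIn n a H₀ := by
    unfold TmaxIn
    refine sSup_le_sSup ?_
    rintro T ⟨c, φ, hf⟩
    refine ⟨c, φ, isFlowIn_congr (fun Z hZ => ?_) hf⟩
    rw [← Real.rpow_mul (hpos Z hZ).le, mul_inv_cancel₀ hr.ne', Real.rpow_one]
  rw [h2] at h1
  have h4 := h1.trans h3
  have hr2 : 0 < r ^ 2 := by positivity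
  calc TmaxIn n (r * a) (fun Z => H₀ Z ^ r)
      = ENNReal.ofReal (r ^ 2) * (ENNReal.ofReal (r⁻¹ ^ 2) *
          TmaxIn n (r * a) (fun Z => H₀ Z ^ r)) := by
        rw [← mul_assoc, ← ENNReal.ofReal_mul hr2.le]
        have : r ^ 2 * r⁻¹ ^ 2 = 1 := by field_simp
        rw [this, ENNReal.ofReal_one, one_mul]
    _ ≤ ENNReal.ofReal (r ^ 2) * TmaxIn n a H₀ := mul_le_mul_right h4 _

end P264.Geo

end
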