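import Vale.Agent.P264.H403.Short
import Vale.Agent.P264.H403.Scale

/-!
# P264 / H403 / Main : arbitrarily short life spans in every Kähler class of `ℙ⁸`
-/

open Set
open scoped ContDiff ENNReal

noncomputable section

namespace P264.Geo

theorem tmax_le_of_failsBy {n : ℕ} (hn : 2 ≤ n) {T : ℝ} (hT : 0 < T) (h : P264.B.FailsBy n T) :
    ∃ h₀ : Cm (n + 1) → ℝ, IsKahler n h₀ ∧ Inv h₀ ∧ Tmax n h₀ ≤ ENNReal.ofReal T := by
  obtain ⟨U₀, hU, hno⟩ := h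
  obtain ⟨h₀, hK, hI, hP⟩ := P264.Geo.R.realise (n := n) (by omega) hU
  have hno' : ∀ c φ, ¬ IsCalabiFlow n h₀ c T φ := by
    intro c φ hf
    have hinv := flow_inv hT hK hf hI
    obtain ⟨ψ, ψi, hR, hψ⟩ := radData_of_flow hn hT hK hf hinv
    have hp : HasPotR (ψ 0) U₀ := by
      intro x hx
      have hq : 0 < x / (1 - x) * Real.exp (deriv U₀ x) :=
        mul_pos (div_pos hx.1 (by linarith only [hx.2])) (Real.exp_pos _)
      have h1 := hψ 0 ⟨le_refl 0, hT.le⟩ (Real.sqrt (x / (1 - x) * Real.exp (deriv U₀ x)))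
      rw [Real.sq_sqrt hq.le] at h1
      rw [h1]
      have hray : (ray (Real.sqrt (x / (1 - x) * Real.exp (deriv U₀ x))) : Cm (n + 1)) ≠ 0 := by
        intro h2
        have h3 := congrFun h2 0
        simp [ray] at h3
      rw [hf.init _ hray, Real.exp_zero, mul_one]
      exact hP x hx
    exact hno ⟨_, _, flowU_of_radData hn hT hR hU hp⟩
  refine ⟨h₀, hK, hI, sSup_le ?_⟩
  rintro T' ⟨c, φ, hf⟩
  by_contra hlt
  push Not at hlt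
  have hsub : Icc 0 T ⊆ {t : ℝ | 0 ≤ t ∧ ENNReal.ofReal t < T'} := fun t ht =>
    ⟨ht.1, lt_of_le_of_lt (ENNReal.ofReal_le_ofReal ht.2) hlt⟩
  exact hno' c φ
    { smooth := hf.smooth.mono (prod_mono_left hsub)
      homog := fun t ht => hf.homog t (hsub ht).1 (hsub ht).2
      init := hf.init
      kahler := fun t ht => hf.kahler t (hsub ht).1 (hsub ht).2
      flow := fun t ht k z => (hf.flow t (hsub ht).1 (hsub ht).2 k z).mono hsub }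

/-- Arbitrarily short life spans in the hyperplane class of `ℙ⁸`. -/
theorem short_life {ε : ℝ≥0∞} (hε : 0 < ε) :
    ∃ h₀ : Cm 9 → ℝ, IsKahler 8 h₀ ∧ Inv h₀ ∧ Tmax 8 h₀ < ε := by
  obtain ⟨T₀, hT₀, hT₀ε⟩ : ∃ T₀ : ℝ, 0 < T₀ ∧ ENNReal.ofReal T₀ < ε := by
    obtain ⟨q, hq1, hq2⟩ := ENNReal.lt_iff_exists_nnreal_btwn.1 hε
    refine ⟨q, ?_, ?_⟩
    · exact_mod_cast hq1
    · rwa [ENNReal.ofReal_coe_nnreal]
  obtain ⟨T, hT, hTT, hf⟩ := P264.Prof.failsBy8 T₀ hT₀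
  obtain ⟨h₀, hK, hI, hle⟩ := tmax_le_of_failsBy (by norm_num) hT hf
  exact ⟨h₀, hK, hI, (hle.trans (ENNReal.ofReal_le_ofReal hTT)).trans_lt hT₀ε⟩

/-- Arbitrarily short life spans in every Kähler class of `ℙ⁸`. -/
theorem short_life_in {a : ℝ} (ha : 0 < a) {ε : ℝ≥0∞} (hε : 0 < ε) :
    ∃ H₀ : Cm 9 → ℝ, IsKahlerIn 8 a H₀ ∧ Inv H₀ ∧ TmaxIn 8 a H₀ < ε := by
  have ha2 : 0 < a ^ 2 := by positivity
  have ha2' : ENNReal.ofReal (a ^ 2) ≠ 0 := by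
    rw [Ne, ENNReal.ofReal_eq_zero, not_le]; exact ha2
  obtain ⟨h₀, hK, hI, hlt⟩ := short_life (ε := ε / ENNReal.ofReal (a ^ 2))
    (ENNReal.div_pos hε.ne' ENNReal.ofReal_ne_top)
  have hK1 : IsKahlerIn 8 1 h₀ := isKahlerIn_one.2 hK
  refine ⟨fun Z => h₀ Z ^ a, ?_, ?_, ?_⟩
  · have := hK1.rpow ha
    rwa [mul_one] at this
  · intro Z W hZ hW h1 h2
    show h₀ Z ^ a = h₀ W ^ a
    rw [hI Z W hZ hW h1 h2]
  · have h1 := tmaxIn_rpow (n := 8) (a := 1) (H₀ := h₀) ha hK1.pos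
    rw [mul_one, tmaxIn_one] at h1
    rw [h1]
    rw [mul_comm]
    exact (ENNReal.lt_div_iff_mul_lt (Or.inl ha2') (Or.inl ENNReal.ofReal_ne_top)).1 hlt

/-- Every Kähler class of `ℙ⁸` contains a metric of constant scalar curvature, with `T_max = ∞`. -/
theorem fs_in {a : ℝ} (ha : 0 < a) :
    IsKahlerIn 8 a (fun Z : Cm 9 => (∑ i, ‖Z i‖ ^ 2) ^ a) ∧
      (∀ (k : Fin 9) (z : Cm 8),
        scalG (cHess (loc (fun Z => (∑ i, ‖Z i‖ ^ 2) ^ a) k)) z = 72 / a) ∧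
      TmaxIn 8 a (fun Z : Cm 9 => (∑ i, ‖Z i‖ ^ 2) ^ a) = ⊤ := by
  have hK1 : IsKahlerIn 8 1 (fun Z : Cm 9 => ∑ i, ‖Z i‖ ^ 2) := isKahlerIn_one.2 fs_kahler
  have ha2 : 0 < a ^ 2 := by positivity
  have ha2' : ENNReal.ofReal (a ^ 2) ≠ 0 := by
    rw [Ne, ENNReal.ofReal_eq_zero, not_le]; exact ha2
  refine ⟨?_, ?_, ?_⟩
  · have := hK1.rpow ha
    rwa [mul_one] at this
  · intro k z
    rw [scal_rpow hK1 ha k z]
    have h := fs_scal (n := 8) (by norm_num) k z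
    norm_num at h
    have h' : scalG (cHess (loc (fun Z : Cm 9 => ∑ i, ‖Z i‖ ^ 2) k)) z = 72 := h
    rw [h']
  · have h1 := tmaxIn_rpow (n := 8) (a := 1) (H₀ := fun Z : Cm 9 => ∑ i, ‖Z i‖ ^ 2) ha hK1.pos
    rw [mul_one, tmaxIn_one] at h1
    rw [h1]
    have h2 : Tmax 8 (fun Z : Cm 9 => ∑ i, ‖Z i‖ ^ 2) = ⊤ := fs_Tmax (by norm_num)
    rw [h2]
    exact ENNReal.mul_top ha2'

end P264.Geo

end
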