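import Vale.Agent.P264.Bdl.B4
import Vale.Agent.P264.H403.Main

/-!
# P264 / H403 / Loc : localisation of the initial metric

`h0 U₀` is the Fubini-Study metric where `U₀` vanishes, and it is `C⁰`-close to it if `U₀` is small.
-/

open Set Filter Topology
open scoped ContDiff ENNReal

noncomputable section

namespace P264.Geo.R

variable {U : ℝ → ℝ} {n : ℕ}

/-- `h0 U` is the Fubini-Study metric outside a ball, if `U` vanishes on `[d,1]`. -/
theorem h0_eq_fs (hU : P264.B.IsInit U) {d : ℝ} (hd : 0 ≤ d)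
    (hz : ∀ x ∈ Icc d 1, U x = 0 ∧ deriv U x = 0) {Z : Cm (n + 1)} (hZ : Z ≠ 0)
    (h : d * ∑ i, ‖Z i‖ ^ 2 ≤ ∑ i : Fin n, ‖Z i.succ‖ ^ 2) : h0 U Z = ∑ i, ‖Z i‖ ^ 2 := by
  have hq := AB_mem hZ
  rw [Fin.sum_univ_succ] at h ⊢
  set A := ‖Z 0‖ ^ 2 with hA
  set B := ∑ i : Fin n, ‖Z i.succ‖ ^ 2 with hB
  have hAB : AB Z = (A, B) := rfl
  rw [hAB] at hq
  have hA0 : 0 ≤ A := hq.1
  have hB0 : 0 ≤ B := hq.2.1
  have hsum : 0 < A + B := hq.2.2
  have hx : B / (A + B) ∈ Icc d 1 := by
    constructor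
    · rw [le_div_iff₀ hsum]
      exact h
    · rw [div_le_one hsum]
      linarith
  have hxs : xs U (AB Z) = B / (A + B) := by
    rw [hAB]
    refine xs_eq hU hq ⟨hd.trans hx.1, hx.2⟩ ?_
    simp only [G, (hz _ hx).2, Real.exp_zero]
    field_simp
    ring
  show F U (AB Z, xs U (AB Z)) = A + B
  rw [hxs, hAB]
  simp only [F, (hz _ hx).1, (hz _ hx).2, mul_zero, Real.exp_zero, neg_zero, mul_one, one_mul]

/-- The symplectic potential. -/
def Ph (U : ℝ → ℝ) (x : ℝ) : ℝ := x * Real.log x + (1 - x) * Real.log (1 - x) + U x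

/-- Its derivative. -/
def ell (U : ℝ → ℝ) (x : ℝ) : ℝ := Real.log x + deriv U x - Real.log (1 - x)

lemma hasDerivAt_Ph (hU : P264.B.IsInit U) {x : ℝ} (hx : x ∈ Ioo (0 : ℝ) 1) :
    HasDerivAt (Ph U) (ell U x) x := by
  have h1 : 0 < x := hx.1
  have h2 : 0 < 1 - x := by linarith only [hx.2]
  have h3 : HasDerivAt U (deriv U x) x := (hU.smooth.differentiable (by simp) x).hasDerivAt
  have h4 : HasDerivAt (fun x : ℝ => 1 - x) (-1) x := by
    simpa using (hasDerivAt_id x).const_sub 1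
  have h5 := (((hasDerivAt_id x).mul (Real.hasDerivAt_log h1.ne')).add (h4.mul (h4.log h2.ne'))).add h3
  refine h5.congr_deriv ?_
  simp only [ell, id]
  field_simp
  ring

lemma ell_strictMono (hU : P264.B.IsInit U) : StrictMonoOn (ell U) (Ioo 0 1) := by
  have hder : ∀ s ∈ Ioo (0 : ℝ) 1,
      HasDerivAt (ell U) (1 / s + deriv (deriv U) s + 1 / (1 - s)) s := by
    intro s hs
    have h1 : HasDerivAt (deriv U) (deriv (deriv U) s) s :=
      ((contDiff_deriv hU.smooth).differentiable (by simp) s).hasDerivAt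
    have h2 := ((Real.hasDerivAt_log hs.1.ne').add h1).sub
      (((hasDerivAt_id s).const_sub 1).log (by simp; linarith only [hs.2]))
    refine h2.congr_deriv ?_
    simp only [id]
    ring
  refine strictMonoOn_of_deriv_pos (convex_Ioo 0 1)
    (fun s hs => (hder s hs).continuousAt.continuousWithinAt) ?_
  intro s hs
  rw [interior_Ioo] at hs
  rw [(hder s hs).deriv]
  have h1 : 0 < s := hs.1
  have h2 : 0 < 1 - s := by linarith only [hs.2]
  have h3 : 1 / s + deriv (deriv U) s + 1 / (1 - s)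
      = (1 + s * (1 - s) * deriv (deriv U) s) / (s * (1 - s)) := by
    field_simp
    ring
  rw [h3]
  exact div_pos (hU.pos s ⟨h1.le, hs.2.le⟩) (mul_pos h1 h2)

/-- Convexity of the symplectic potential. -/
lemma tangent (hU : P264.B.IsInit U) {x y : ℝ} (hx : x ∈ Ioo (0 : ℝ) 1) (hy : y ∈ Ioo (0 : ℝ) 1) :
    Ph U x + ell U x * (y - x) ≤ Ph U y := by
  have hmono := (ell_strictMono hU).monotoneOn
  rcases lt_trichotomy x y with h | h | h
  · obtain ⟨c, hc, hc'⟩ := exists_hasDerivAt_eq_slope (Ph U) (ell U) h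
      (fun z hz => (hasDerivAt_Ph hU ⟨hx.1.trans_le hz.1, hz.2.trans_lt hy.2⟩).continuousAt.continuousWithinAt)
      (fun z hz => hasDerivAt_Ph hU ⟨hx.1.trans hz.1, hz.2.trans hy.2⟩)
    have h1 : ell U x ≤ ell U c := hmono hx ⟨hx.1.trans hc.1, hc.2.trans hy.2⟩ hc.1.le
    have h2 : 0 < y - x := by linarith
    rw [eq_div_iff h2.ne'] at hc'
    nlinarith [mul_le_mul_of_nonneg_right h1 h2.le]
  · subst h
    simp
  · obtain ⟨c, hc, hc'⟩ := exists_hasDerivAt_eq_slope (Ph U) (ell U) h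
      (fun z hz => (hasDerivAt_Ph hU ⟨hy.1.trans_le hz.1, hz.2.trans_lt hx.2⟩).continuousAt.continuousWithinAt)
      (fun z hz => hasDerivAt_Ph hU ⟨hy.1.trans hz.1, hz.2.trans hx.2⟩)
    have h1 : ell U c ≤ ell U x := hmono ⟨hy.1.trans hc.1, hc.2.trans hx.2⟩ hx hc.2.le
    have h2 : 0 < x - y := by linarith
    rw [eq_div_iff h2.ne'] at hc'
    nlinarith [mul_le_mul_of_nonneg_right h1 h2.le]

lemma isInit_zero : P264.B.IsInit (fun _ : ℝ => (0 : ℝ)) := by
  refine ⟨contDiff_const, fun x hx => ?_⟩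
  simp

/-- **`C⁰`-closeness** (Legendre duality): `|log h - log |Z|²| ≤ sup |U|`. -/
theorem h0_close (hU : P264.B.IsInit U) {M : ℝ} (hM : ∀ x ∈ Icc (0 : ℝ) 1, |U x| ≤ M)
    {Z : Cm (n + 1)} (hZ : Z ≠ 0) :
    |Real.log (h0 U Z) - Real.log (∑ i, ‖Z i‖ ^ 2)| ≤ M := by
  have hq := AB_mem hZ
  rw [Fin.sum_univ_succ]
  set A := ‖Z 0‖ ^ 2 with hA
  set B := ∑ i : Fin n, ‖Z i.succ‖ ^ 2 with hB
  have hAB : AB Z = (A, B) := rfl
  rw [hAB] at hq
  have hA0 : 0 ≤ A := hq.1
  have hB0 : 0 ≤ B := hq.2.1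
  have hsum : 0 < A + B := hq.2.2
  obtain ⟨hx, hG⟩ := xs_spec hU hq
  have hh : h0 U Z = F U ((A, B), xs U (A, B)) := rfl
  rw [hh]
  set x := xs U (A, B) with hxdef
  have hMx := hM x hx
  rcases hA0.eq_or_lt with hA' | hA'
  · -- `A = 0`
    rw [← hA'] at hG hsum ⊢
    have hBp : 0 < B := by simpa using hsum
    have hx1 : x = 1 := by
      simp only [G, zero_mul, zero_sub, neg_eq_zero, mul_eq_zero] at hG
      rcases hG with h | h
      · exact absurd h hBp.ne'
      · linarith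
    rw [hx1] at hMx ⊢
    simp only [F, zero_mul, zero_add, sub_self, neg_zero, Real.exp_zero, mul_one]
    rw [Real.log_mul (Real.exp_pos _).ne' hBp.ne', Real.log_exp]
    rw [show -U 1 + Real.log B - Real.log B = -U 1 by ring, abs_neg]
    exact hMx
  rcases hB0.eq_or_lt with hB' | hB'
  · rw [← hB'] at hG hsum ⊢
    have hx0 : x = 0 := by
      simp only [G, zero_mul, sub_zero, mul_eq_zero] at hG
      rcases hG with h | h | h
      · exact absurd h hA'.ne'
      · exact h
      · exact absurd h (Real.exp_pos _).ne'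
    rw [hx0] at hMx ⊢
    simp only [F, zero_mul, add_zero, Real.exp_zero, mul_one]
    rw [Real.log_mul (Real.exp_pos _).ne' hA'.ne', Real.log_exp]
    rw [show -U 0 + Real.log A - Real.log A = -U 0 by ring, abs_neg]
    exact hMx
  -- the interior case
  have hxI : x ∈ Ioo (0 : ℝ) 1 := by
    refine ⟨lt_of_le_of_ne hx.1 ?_, lt_of_le_of_ne hx.2 ?_⟩
    · intro h
      rw [← h] at hG
      simp only [G, zero_mul, mul_zero, sub_zero, mul_one, zero_sub, neg_eq_zero] at hG
      exact hB'.ne' hG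
    · intro h
      rw [h] at hG
      simp only [G, one_mul, sub_self, mul_zero, sub_zero, mul_eq_zero] at hG
      rcases hG with h | h
      · exact hA'.ne' h
      · exact (Real.exp_pos _).ne' h
  have hx1 : 0 < x := hxI.1
  have hx2 : 0 < 1 - x := by linarith [hxI.2]
  have h3 : A * (x * Real.exp (deriv U x)) = B * (1 - x) := by
    simp only [G] at hG
    linarith only [hG]
  have hell : ell U x = Real.log B - Real.log A := by
    have h4 := congrArg Real.log h3
    rw [Real.log_mul hA'.ne' (by positivity), Real.log_mul hx1.ne' (by positivity),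
      Real.log_exp, Real.log_mul hB'.ne' hx2.ne'] at h4
    simp only [ell]
    linarith only [h4]
  have hF : Real.log (F U ((A, B), x)) = Real.log A + x * (Real.log B - Real.log A) - Ph U x := by
    have e1 : F U ((A, B), x) = Real.exp (-U x) * (A * Real.exp (x * deriv U x) / (1 - x)) := by
      simp only [F]
      congr 1
      have e2 : Real.exp (-(1 - x) * deriv U x)
          = Real.exp (x * deriv U x) * Real.exp (-deriv U x) := by
        rw [← Real.exp_add]; congr 1; ring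
      have e3 : Real.exp (deriv U x) * Real.exp (-deriv U x) = 1 := by
        rw [← Real.exp_add]; simp
      rw [e2, eq_div_iff hx2.ne']
      have e4 : B * (1 - x) * Real.exp (-deriv U x) = A * x := by
        rw [← h3]
        linear_combination A * x * e3
      linear_combination Real.exp (x * deriv U x) * e4
    rw [e1, Real.log_mul (Real.exp_pos _).ne' (by positivity), Real.log_exp,
      Real.log_div (by positivity) hx2.ne', Real.log_mul hA'.ne' (Real.exp_pos _).ne', Real.log_exp,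
      ← hell]
    simp only [Ph, ell]
    ring
  set y := B / (A + B) with hy
  have hyI : y ∈ Ioo (0 : ℝ) 1 := by
    refine ⟨by positivity, ?_⟩
    rw [hy, div_lt_one hsum]
    linarith
  have hy2 : 1 - y = A / (A + B) := by
    rw [hy]
    field_simp
    ring
  have hlogy : Real.log y = Real.log B - Real.log (A + B) := by
    rw [hy, Real.log_div hB'.ne' hsum.ne']
  have hlogy' : Real.log (1 - y) = Real.log A - Real.log (A + B) := by
    rw [hy2, Real.log_div hA'.ne' hsum.ne']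
  have ht1 := tangent hU hxI hyI
  have ht2 := tangent isInit_zero hyI hxI
  have hMy := hM y ⟨hyI.1.le, hyI.2.le⟩
  rw [hell] at ht1
  simp only [Ph, ell, deriv_const, add_zero, hlogy, hlogy'] at ht1 ht2
  rw [hF]
  simp only [Ph]
  rw [abs_le] at hMx hMy ⊢
  constructor
  · nlinarith [ht1, hMy.2]
  · nlinarith [ht2, hMx.1]

/-! ### Two potentials -/

/-- `h0 U = h0 V` where the momentum coordinate of `V` is at least `d`, if `U` and `V` have the
same `1`-jets on `[d,1]`. -/
theorem h0_eq_of_eqOn {V : ℝ → ℝ} (hU : P264.B.IsInit U) (hV : P264.B.IsInit V) {d : ℝ}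
    (hz : ∀ x ∈ Icc d 1, U x = V x ∧ deriv U x = deriv V x) {Z : Cm (n + 1)} (hZ : Z ≠ 0)
    (h : d ≤ xs V (AB Z)) : h0 U Z = h0 V Z := by
  have hq := AB_mem hZ
  obtain ⟨hx, hG⟩ := xs_spec hV hq
  have hx' : xs V (AB Z) ∈ Icc d 1 := ⟨h, hx.2⟩
  have hxs : xs U (AB Z) = xs V (AB Z) := by
    refine xs_eq hU hq hx ?_
    simp only [G, (hz _ hx').2] at hG ⊢
    exact hG
  simp only [h0, hxs]
  simp only [F, (hz _ hx').1, (hz _ hx').2]

/-- The momentum coordinate is bounded below outside a ball. -/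
theorem exists_xs_ge {V : ℝ → ℝ} (hV : P264.B.IsInit V) {ε : ℝ} (hε : 0 < ε) :
    ∃ d : ℝ, 0 < d ∧ d ≤ 1 / 2 ∧ ∀ p ∈ Quad, ε * p.1 ≤ p.2 → d ≤ xs V p := by
  obtain ⟨C, hC⟩ := isCompact_Icc.exists_bound_of_continuousOn (s := Icc (0 : ℝ) 1)
    (f := deriv V) (contDiff_deriv hV.smooth).continuous.continuousOn
  have hC0 : 0 ≤ C := (norm_nonneg _).trans (hC 0 ⟨le_refl _, zero_le_one⟩)
  -- `x e^{V'} A = B (1-x) ≥ ε A (1-x)`, so `x e^C ≥ ε (1-x)`
  set d : ℝ := min (1 / 2) (ε * Real.exp (-C) / 2) with hd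
  have hd0 : 0 < d := lt_min (by norm_num) (by positivity)
  refine ⟨d, hd0, min_le_left _ _, ?_⟩
  intro p hp hpe
  obtain ⟨hx, hG⟩ := xs_spec hV hp
  set x := xs V p with hxdef
  by_contra hlt
  push Not at hlt
  have hx2 : x < 1 / 2 := hlt.trans_le (min_le_left _ _)
  have hx3 : x < ε * Real.exp (-C) / 2 := hlt.trans_le (min_le_right _ _)
  have hG' : p.1 * (x * Real.exp (deriv V x)) = p.2 * (1 - x) := by
    simp only [G] at hG
    linarith only [hG]
  have hdC : deriv V x ≤ C := (le_abs_self _).trans (hC x hx)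
  have he : Real.exp (deriv V x) ≤ Real.exp C := Real.exp_le_exp.2 hdC
  rcases hp.1.eq_or_lt with h0 | h0
  · rw [← h0, zero_mul] at hG'
    have hB : 0 < p.2 := by
      have := hp.2.2
      rw [← h0, zero_add] at this
      exact this
    have : 0 < p.2 * (1 - x) := mul_pos hB (by linarith)
    linarith
  · have h1 : p.1 * (ε * (1 - x)) ≤ p.1 * (x * Real.exp C) := by
      calc p.1 * (ε * (1 - x)) = (ε * p.1) * (1 - x) := by ring
        _ ≤ p.2 * (1 - x) := mul_le_mul_of_nonneg_right hpe (by linarith)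
        _ = p.1 * (x * Real.exp (deriv V x)) := hG'.symm
        _ ≤ p.1 * (x * Real.exp C) :=
          mul_le_mul_of_nonneg_left (mul_le_mul_of_nonneg_left he hx.1) h0.le
    have h2 : ε * (1 - x) ≤ x * Real.exp C := le_of_mul_le_mul_left h1 h0
    have h3 : x * Real.exp C < ε / 2 := by
      have h4 := mul_lt_mul_of_pos_right hx3 (Real.exp_pos C)
      have h5 : ε * Real.exp (-C) / 2 * Real.exp C = ε / 2 := by
        have : Real.exp (-C) * Real.exp C = 1 := by rw [← Real.exp_add]; simp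
        linear_combination ε / 2 * this
      rwa [h5] at h4
    nlinarith

/-- `log h0 = log A + x (log B - log A) - Ph` for `A, B > 0`. -/
lemma log_h0 (hU : P264.B.IsInit U) {A B : ℝ} (hA' : 0 < A) (hB' : 0 < B) :
    xs U (A, B) ∈ Ioo (0 : ℝ) 1 ∧ ell U (xs U (A, B)) = Real.log B - Real.log A ∧
      Real.log (F U ((A, B), xs U (A, B))) =
        Real.log A + xs U (A, B) * (Real.log B - Real.log A) - Ph U (xs U (A, B)) := by
  have hq : (A, B) ∈ Quad := ⟨hA'.le, hB'.le, by show 0 < A + B; positivity⟩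
  obtain ⟨hx, hG⟩ := xs_spec hU hq
  set x := xs U (A, B) with hxdef
  have hxI : x ∈ Ioo (0 : ℝ) 1 := by
    refine ⟨lt_of_le_of_ne hx.1 ?_, lt_of_le_of_ne hx.2 ?_⟩
    · intro h
      rw [← h] at hG
      simp only [G, zero_mul, mul_zero, sub_zero, mul_one, zero_sub, neg_eq_zero] at hG
      exact hB'.ne' hG
    · intro h
      rw [h] at hG
      simp only [G, one_mul, sub_self, mul_zero, sub_zero, mul_eq_zero] at hG
      rcases hG with h | h
      · exact hA'.ne' h
      · exact (Real.exp_pos _).ne' h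
  have hx1 : 0 < x := hxI.1
  have hx2 : 0 < 1 - x := by linarith [hxI.2]
  have h3 : A * (x * Real.exp (deriv U x)) = B * (1 - x) := by
    simp only [G] at hG
    linarith only [hG]
  have hell : ell U x = Real.log B - Real.log A := by
    have h4 := congrArg Real.log h3
    rw [Real.log_mul hA'.ne' (by positivity), Real.log_mul hx1.ne' (by positivity),
      Real.log_exp, Real.log_mul hB'.ne' hx2.ne'] at h4
    simp only [ell]
    linarith only [h4]
  refine ⟨hxI, hell, ?_⟩
  have e1 : F U ((A, B), x) = Real.exp (-U x) * (A * Real.exp (x * deriv U x) / (1 - x)) := by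
    simp only [F]
    congr 1
    have e2 : Real.exp (-(1 - x) * deriv U x)
        = Real.exp (x * deriv U x) * Real.exp (-deriv U x) := by
      rw [← Real.exp_add]; congr 1; ring
    have e3 : Real.exp (deriv U x) * Real.exp (-deriv U x) = 1 := by
      rw [← Real.exp_add]; simp
    rw [e2, eq_div_iff hx2.ne']
    have e4 : B * (1 - x) * Real.exp (-deriv U x) = A * x := by
      rw [← h3]
      linear_combination A * x * e3
    linear_combination Real.exp (x * deriv U x) * e4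
  rw [e1, Real.log_mul (Real.exp_pos _).ne' (by positivity), Real.log_exp,
    Real.log_div (by positivity) hx2.ne', Real.log_mul hA'.ne' (Real.exp_pos _).ne', Real.log_exp,
    ← hell]
  simp only [Ph, ell]
  ring

/-- **`C⁰`-closeness** (Legendre duality), one side. -/
lemma log_h0_le {V : ℝ → ℝ} (hU : P264.B.IsInit U) (hV : P264.B.IsInit V) {M : ℝ}
    (hM : ∀ x ∈ Icc (0 : ℝ) 1, |U x - V x| ≤ M) {Z : Cm (n + 1)} (hZ : Z ≠ 0) :
    Real.log (h0 U Z) - Real.log (h0 V Z) ≤ M := by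
  have hq := AB_mem hZ
  set A := ‖Z 0‖ ^ 2 with hA
  set B := ∑ i : Fin n, ‖Z i.succ‖ ^ 2 with hB
  have hAB : AB Z = (A, B) := rfl
  rw [hAB] at hq
  have hA0 : 0 ≤ A := hq.1
  have hB0 : 0 ≤ B := hq.2.1
  have hsum : 0 < A + B := hq.2.2
  have hh : ∀ W : ℝ → ℝ, h0 W Z = F W ((A, B), xs W (A, B)) := fun W => rfl
  rw [hh, hh]
  rcases hA0.eq_or_lt with hA' | hA'
  · rw [← hA'] at hsum ⊢
    have hBp : 0 < B := by simpa using hsum
    have hx1 : ∀ W : ℝ → ℝ, P264.B.IsInit W → xs W (0, B) = 1 := by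
      intro W hW
      refine xs_eq hW ⟨le_refl _, hBp.le, by simpa using hBp⟩ ⟨zero_le_one, le_refl _⟩ ?_
      simp [G]
    rw [hx1 U hU, hx1 V hV]
    simp only [F, zero_mul, zero_add, sub_self, neg_zero, Real.exp_zero, mul_one]
    rw [Real.log_mul (Real.exp_pos _).ne' hBp.ne', Real.log_exp,
      Real.log_mul (Real.exp_pos _).ne' hBp.ne', Real.log_exp]
    have := (abs_le.1 (hM 1 ⟨zero_le_one, le_refl _⟩)).1
    linarith
  rcases hB0.eq_or_lt with hB' | hB'
  · rw [← hB'] at hsum ⊢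
    have hx0 : ∀ W : ℝ → ℝ, P264.B.IsInit W → xs W (A, 0) = 0 := by
      intro W hW
      refine xs_eq hW ⟨hA'.le, le_refl _, by simpa using hA'⟩ ⟨le_refl _, zero_le_one⟩ ?_
      simp [G]
    rw [hx0 U hU, hx0 V hV]
    simp only [F, zero_mul, add_zero, Real.exp_zero, mul_one]
    rw [Real.log_mul (Real.exp_pos _).ne' hA'.ne', Real.log_exp,
      Real.log_mul (Real.exp_pos _).ne' hA'.ne', Real.log_exp]
    have := (abs_le.1 (hM 0 ⟨le_refl _, zero_le_one⟩)).1
    linarith
  obtain ⟨hxI, hell, hF⟩ := log_h0 hU hA' hB'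
  obtain ⟨hyI, hell', hF'⟩ := log_h0 hV hA' hB'
  rw [hF, hF']
  set x := xs U (A, B)
  set y := xs V (A, B)
  have ht := tangent hV hyI hxI
  rw [hell'] at ht
  have hMx := (abs_le.1 (hM x ⟨hxI.1.le, hxI.2.le⟩)).1
  have e : Ph U x = Ph V x + (U x - V x) := by simp only [Ph]; ring
  rw [e]
  nlinarith

/-- **`C⁰`-closeness** (Legendre duality): `|log h0 U - log h0 V| ≤ sup |U - V|`. -/
theorem abs_log_h0 {V : ℝ → ℝ} (hU : P264.B.IsInit U) (hV : P264.B.IsInit V) {M : ℝ}
    (hM : ∀ x ∈ Icc (0 : ℝ) 1, |U x - V x| ≤ M) {Z : Cm (n + 1)} (hZ : Z ≠ 0) :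
    |Real.log (h0 U Z) - Real.log (h0 V Z)| ≤ M := by
  rw [abs_le]
  constructor
  · have := log_h0_le hV hU (M := M) (fun x hx => by rw [abs_sub_comm]; exact hM x hx) hZ
    linarith
  · exact log_h0_le hU hV hM hZ

/-- `h0 0` is the Fubini-Study metric. -/
theorem h0_zero {Z : Cm (n + 1)} (hZ : Z ≠ 0) :
    h0 (fun _ => (0 : ℝ)) Z = ∑ i, ‖Z i‖ ^ 2 := by
  refine h0_eq_fs isInit_zero (d := 0) (le_refl _) (fun x _ => by simp) hZ ?_
  rw [zero_mul]
  exact Finset.sum_nonneg fun i _ => by positivity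

/-- The Calabi flow from `h0 U` stops before `T` if the reduced equation has no solution. -/
theorem tmax_h0_le (hn : 2 ≤ n) (hU : P264.B.IsInit U) {T : ℝ} (hT : 0 < T)
    (hno : ∀ V φ : ℝ → ℝ → ℝ, ¬ P264.B.IsFlowU n T U V φ) :
    Tmax n (h0 U : Cm (n + 1) → ℝ) ≤ ENNReal.ofReal T := by
  have hK : IsKahler n (h0 U : Cm (n + 1) → ℝ) := isKahler_h0 hU
  have hP : HasPot (h0 U : Cm (n + 1) → ℝ) U := hasPot_h0 (by omega) hU
  have hno' : ∀ c φ, ¬ IsCalabiFlow n (h0 U : Cm (n + 1) → ℝ) c T φ := by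
    intro c φ hf
    have hinv := flow_inv hT hK hf (h0_inv U)
    obtain ⟨ψ, ψi, hR, hψ⟩ := radData_of_flow hn hT hK hf hinv
    have hp : HasPotR (ψ 0) U := by
      intro x hx
      have hq : 0 < x / (1 - x) * Real.exp (deriv U x) :=
        mul_pos (div_pos hx.1 (by linarith only [hx.2])) (Real.exp_pos _)
      have h1 := hψ 0 ⟨le_refl 0, hT.le⟩ (Real.sqrt (x / (1 - x) * Real.exp (deriv U x)))
      rw [Real.sq_sqrt hq.le] at h1
      rw [h1]
      have hray : (ray (Real.sqrt (x / (1 - x) * Real.exp (deriv U x))) : Cm (n + 1)) ≠ 0 := by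
        intro h2
        have h3 := congrFun h2 0
        simp [ray] at h3
      rw [hf.init _ hray, Real.exp_zero, mul_one]
      exact hP x hx
    exact hno _ _ (flowU_of_radData hn hT hR hU hp)
  refine sSup_le ?_
  rintro T' ⟨c, φ, hf⟩
  by_contra hlt
  push Not at hlt
  have hsub : Icc 0 T ⊆ {t : ℝ | 0 ≤ t ∧ ENNReal.ofReal t < T'} := fun t ht =>
    ⟨ht.1, lt_of_le_of_lt (ENNReal.ofReal_le_ofReal ht.2) hlt⟩
  exact hno' c φ
    { smooth := hf.smooth.mono (prod_mono_left hsub)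
      homog := fun t ht => hf.homog t (hsub ht).1 (hsub ht).2
      init := hf.init
      kahler := fun t ht => hf.kahler t (hsub ht).1 (hsub ht).2
      flow := fun t ht k z => (hf.flow t (hsub ht).1 (hsub ht).2 k z).mono hsub }

end P264.Geo.R

end
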