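import Vale.Agent.P264.Bdl.B4

/-!
# P264 / H403 / Short : the life span can be arbitrarily short

The trap argument of the closure works for the initial data attached to every small blow-up time
`T`; hence for every `T₀ > 0` there are admissible data whose one-dimensional flow does not exist on
some interval `[0,T]`, `T ≤ T₀`.
-/

open MeasureTheory Set Filter Real
open scoped ContDiff Topology

namespace P264.B

/-- Some admissible data have no one-dimensional flow on `[0,T]`. -/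
def FailsBy (n : ℕ) (T : ℝ) : Prop :=
  ∃ U₀ : ℝ → ℝ, IsInit U₀ ∧ ¬ ∃ U φ : ℝ → ℝ → ℝ, IsFlowU n T U₀ U φ

section
variable {R ρ χ : ℝ → ℝ} {Rmin α z₀ rf E₃ : ℝ}

/-- The final assembly of the closure (`P264.B.final_assembly`), for one short time interval. -/
theorem final_assembly_short {psi : Fin 2 → ℝ → ℝ} {lam : Fin 2 → ℝ}
    {ν κ₁ κ₂ δ κ C₀ e₁ e₂ Kr Kp Kq K₂ Kinf η M Ns A Cε dd CC : ℝ}
    (hdd : 0 < dd) (hCC : 0 ≤ CC)
    (hC : Cert R ρ psi lam ν κ₁ κ₂ Rmin α δ κ C₀ e₁ e₂ Kr Kp Kq K₂ Kinf z₀)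
    (hF : FarCert R ρ z₀ rf E₃)
    -- the energy inequality of M3, for this `η`
    (henergy : ∀ (U₀ : ℝ → ℝ) (U φ : ℝ → ℝ → ℝ) (χ : ℝ → ℝ) (T X s : ℝ),
      IsFlowU 8 T U₀ U φ → Cutoff χ X → exp (-s) ≤ T → Small R φ T X η s →
      exp (z₀ - s / 2) ≤ X / 2 → NN ρ (GG χ R φ T s) ≤ Ns →
      2 * ∫ z, GS χ R φ T s z * Top ρ (GG χ R φ T s) z ≤
        -dd * NN ρ (GG χ R φ T s) + CC * ∑ i, aa (psi i) R φ T s ^ 2
          + Cε * (e₁ ^ 2 + ecut2 χ R ρ φ T s))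
    -- the scalar inequality of M3, for this `η`, combined with `NN < Ns`
    (hscalar : ∀ (U₀ : ℝ → ℝ) (U φ : ℝ → ℝ → ℝ) (χ : ℝ → ℝ) (T X s : ℝ),
      IsFlowU 8 T U₀ U φ → Cutoff χ X → exp (-s) ≤ T → Small R φ T X η s →
      exp (z₀ - s / 2) ≤ X / 2 → NN ρ (GG χ R φ T s) ≤ Ns → ∀ i,
      |aS (psi i) R φ T s - lam i * aa (psi i) R φ T s| < lam i * A)
    -- numbers
    (hη : 0 ≤ η) (hη2 : η ≤ 1 / 20) (hη3 : η ^ 2 ≤ 60 * M) (hM : 0 < M) (hNs : 0 < Ns)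
    (hNsM : Ns / rf ≤ M / 4) (hKinf : Kinf * √Ns ≤ η)
    (hMη : 22 / 10 * √M < 79 / 100 * η) (hE : 1320000 * E₃ ≤ M / 16)
    (hA : 0 < A) (hCε : 0 ≤ Cε)
    (hnum : (2 * CC * A ^ 2 + Cε * e₁ ^ 2) / dd ≤ 3 / 4 * Ns) (hα : α * (1 + η) < 1)
    (hαR : 0 < α)
    -- data, for every small `T`
    (hdata : ∀ (χ : ℝ → ℝ) (X c₁ : ℝ), Cutoff χ X → X ≤ 1 / 8 → exp (c₁ + 5 / 3) ≤ X / 2 →
      ∃ EA Z T₁ : ℝ, 0 < T₁ ∧ 0 ≤ EA ∧ ∀ s₀ : ℝ, exp (-s₀) ≤ T₁ →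
        ∃ (CL : ℝ) (U₀ : (Fin 2 → ℝ) → ℝ → ℝ),
          DataFam χ R ρ psi (exp (-s₀)) s₀ z₀ c₁ A Ns M EA Z CL U₀) :
    ∀ T₀ : ℝ, 0 < T₀ → ∃ T : ℝ, 0 < T ∧ T ≤ T₀ ∧ FailsBy 8 T := by
  intro T₀ hT₀
  by_contra hcon
  have hL : ∀ U₀ : ℝ → ℝ, IsInit U₀ → ∀ T : ℝ, 0 < T → T ≤ T₀ →
      ∃ U φ : ℝ → ℝ → ℝ, IsFlowU 8 T U₀ U φ := by
    intro U₀ hU₀ T hT hTT
    by_contra hno
    exact hcon ⟨T, hT, hTT, U₀, hU₀, hno⟩
  have hR := hC.profile
  have hρ := hC.weight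
  -- the cut-off and the constants
  obtain ⟨X, hXdef⟩ : ∃ X : ℝ, X = 1 / 8 := ⟨_, rfl⟩
  have hX0 : 0 < X := by rw [hXdef]; norm_num
  have hX1 : X < 1 := by rw [hXdef]; norm_num
  obtain ⟨χ, hχ⟩ := exists_cutoff_far hX0 hX1
  obtain ⟨c₁, hc₁⟩ : ∃ c₁ : ℝ, exp (c₁ + 5 / 3) = X / 2 :=
    ⟨log (X / 2) - 5 / 3, by rw [sub_add_cancel, exp_log (by (clear * - hXdef; positivity))]⟩
  obtain ⟨EA, Z, T₁, hT₁, hEA, hdat⟩ := hdata χ X c₁ hχ hXdef.le hc₁.le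
  set a : ℝ := exp (c₁ - 1) with hadef
  have ha : 0 < a := exp_pos _
  have haX : a ≤ X / 2 := by
    rw [← hc₁]
    exact exp_le_exp.2 (by linarith only [])
  have hab : a < 1 / 4 := by
    rw [hXdef] at haX
    linarith only [haX]
  have hcpos : 0 < a * Rmin := mul_pos ha hR.Rmin_pos
  obtain ⟨C, hC0, houter⟩ := outer_ctl ha hab (by norm_num) hEA hcpos
  obtain ⟨K, hK, hKb⟩ := outer_block hR ha hC0 hχ
  obtain ⟨Kc, hKc, hKcb⟩ := ecut_bound hρ hR hC0 hχ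
  obtain ⟨CR, hCR'⟩ := hR.right
  have hCR : ∀ z, 0 ≤ z → |R z - α| ≤ CR * exp (-2 * z) := by
    intro z hz
    have h1 := hCR' 0 (by norm_num) z hz
    rwa [iteratedDeriv_zero] at h1
  have hCR0 : 0 ≤ CR := by
    have h1 := hCR 0 le_rfl
    rw [mul_zero, exp_zero, mul_one] at h1
    exact (abs_nonneg _).trans h1
  obtain ⟨s₀, g1, g2, g3, g4, g5, g6, g7, g8, g9, g10, g11, g12⟩ := fa_choose (z₀ := z₀)
    (T₁ := min T₁ T₀) (C := C) (c := a * Rmin) (a := a) (Z := Z) (c₁ := c₁) (X := X) (CR := CR)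
    (M := M) (η := η) (K := K) (Cε := Cε) (Kc := Kc) (ν := ν) (Ns := Ns)
    (lt_min hT₁ hT₀) hcpos ha hX0 hρ.nu.1 hMη hM hNs
  obtain ⟨CL, U₀, hD⟩ := hdat s₀ (g1.trans (min_le_left _ _))
  obtain ⟨T, hTdef⟩ : ∃ T : ℝ, exp (-s₀) = T := ⟨_, rfl⟩
  have hT0 : 0 < T := hTdef ▸ exp_pos _
  rw [hTdef] at g1 g2 g3 g4 g5 g10 g11 hD
  have hTs : ∀ s, s₀ ≤ s → exp (-s) ≤ T := by
    intro s hs
    rw [← hTdef]
    exact exp_le_exp.2 (by linarith only [hs])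
  have hg9 : ∀ s, s₀ ≤ s → exp (z₀ - s / 2) ≤ X / 2 := by
    intro s hs
    refine le_trans (exp_le_exp.2 ?_) g9
    linarith only [hs]
  -- the flows
  have hex : ∀ b : Fin 2 → ℝ, (∀ i, |b i| ≤ A) → ∃ U φ : ℝ → ℝ → ℝ, IsFlowU 8 T (U₀ b) U φ :=
    fun b hb => hL (U₀ b) (hD.init b hb) T hT0 (g1.trans (min_le_right _ _))
  choose! U φ hfl using hex
  -- control of the outer region
  have hout : ∀ b, (∀ i, |b i| ≤ A) → OuterCtl T a (1 / 4) C (φ b) := by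
    intro b hb
    refine houter T hT0 g2 g3 (U₀ b) (U b) (φ b) (hfl b hb)
      (hD.energy b hb (U b) (φ b) (hfl b hb)) ?_
    intro x hx
    rw [hD.far_eq b hb (U b) (φ b) (hfl b hb) x (g4.trans hx.1) hx.2]
    exact mul_le_mul hx.1 (hR.lower _) hR.Rmin_pos.le (ha.le.trans hx.1)
  have hηo : 0 ≤ C * T ^ (1 / 4 : ℝ) / a + 2 * CR * T / a ^ 2 := by (clear * - hC0 hT0 hCR0; positivity)
  -- the trap estimate
  have htrap : ∀ b, (∀ i, |b i| ≤ A) → ∀ σ, s₀ ≤ σ →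
      (∀ s ∈ Icc s₀ σ, ∀ i, |aa (psi i) R (φ b) T s| ≤ A) →
      NN ρ (GG χ R (φ b) T σ) < Ns ∧ Small R (φ b) T X η σ := by
    intro b hb σ hσ hbox
    have hφ := hfl b hb
    have ho := hout b hb
    refine trap_estimate (ηo := C * T ^ (1 / 4 : ℝ) / a + 2 * CR * T / a ^ 2)
      (Aout := K) (Kε := Kc * exp (-ν * s₀)) hC hF hdd hCC hφ hχ hTdef hη hη2 hη3 hM hNs hNsM hKinf
      hηo g10 hE hc₁.le g6 (hD.NN_le b hb _ _ hφ) (hD.block_le b hb _ _ hφ)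
      (NN_cont hρ hR hφ hχ hTdef) ?_ hK ?_ g11 hCε ?_ ?_ hA.le hnum g12 hσ hbox
    · intro s hs z hz hx
      refine outer_sup hR hCR hφ hTdef g5 le_rfl ho ?_ hs ⟨?_, ?_⟩
      · intro x hx
        exact hD.far_eq b hb _ _ hφ x (g4.trans hx.1) hx.2
      · rw [hadef]
        unfold xx
        exact exp_le_exp.2 (by linarith only [hz])
      · refine hx.trans ?_
        rw [hXdef]
        norm_num
    · intro s hs c hc
      refine hKb T hT0 g2 (U₀ b) (U b) (φ b) hφ (1 / 4) ?_ (by norm_num) ho c s (hTs s hs) ?_ ?_ ?_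
      · rw [hXdef]
        norm_num
      · rw [hadef]
        exact exp_le_exp.2 (by linarith only [hc.1])
      · rw [← hc₁]
        exact exp_le_exp.2 (by linarith only [hc.2])
      · linarith only [g8, hs, hc.1]
    · intro σ' hσ'
      refine hKcb T hT0 g2 (U₀ b) (U b) (φ b) hφ ?_ a (1 / 4) ha haX ?_ (by norm_num) ho s₀ σ'
        hTdef hσ' g7
      · intro x hx
        have hx4 : x ≤ 1 / 4 := hx.2.trans (by rw [hXdef]; norm_num)
        have hx0 : 0 ≤ x := ha.le.trans (haX.trans hx.1)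
        rw [hD.far_eq b hb _ _ hφ x (g4.trans (haX.trans hx.1)) hx4]
        calc x * R (log (x / √T)) ≤ x * 1 := mul_le_mul_of_nonneg_left (hR.upper _) hx0
          _ ≤ 1 := by linarith only [hx4]
      · rw [hXdef]
        norm_num
    · intro s hs hsm hN
      exact henergy (U₀ b) (U b) (φ b) χ T X s hφ hχ (hTs s hs) hsm (hg9 s hs) hN
  -- the trap lemma
  have hsupp : ∀ i, ∀ s, s₀ ≤ s → ∀ z ∈ tsupport (psi i), xx s z < 1 := fun i s hs =>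
    fa_supp (fun z hz => hC.psi_far i z hz) hs g9 hXdef.le
  have hjoint : ContinuousOn (fun p : ℝ × (Fin 2 → ℝ) => fun i => aa (psi i) R (φ p.2) T p.1)
      (Ici s₀ ×ˢ {b | ∀ i, |b i| ≤ A}) := by
    have hz0 : z₀ < s₀ / 2 := by
      have h1 : exp (z₀ - s₀ / 2) < exp 0 := by
        rw [exp_zero]
        linarith only [hXdef, g9]
      have h2 := exp_lt_exp.1 h1
      linarith only [h2]
    refine aa_joint hC.psi_smooth hC.psi_supp hC.psi_far hR.smooth.continuous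
      (fun z => hR.Rmin_pos.trans_le (hR.lower z)) hTdef hz0 hfl (abs_nonneg CL) ?_
    intro b hb b' hb'
    rw [mul_pow, sq_abs]
    exact hD.lip b b' hb hb'
  obtain ⟨b, hb, hball⟩ := Trap.trap_deriv hA (Trap.isTime_Ici s₀)
    (fun s b i => aa (psi i) R (φ b) T s) hjoint
    (by
      intro b hb
      funext i
      exact hD.aa_eq b hb _ _ (hfl b hb) i)
    (by
      intro b hb s hs hbox i hi
      have hs' : s₀ ≤ s := hs
      obtain ⟨hN, hsm⟩ := htrap b hb s hs' hbox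
      refine ⟨aS (psi i) R (φ b) T s, ?_, ?_⟩
      · exact (aa_deriv hR (hfl b hb) (hTs s hs') (hC.psi_smooth i) (hC.psi_supp i)
          (hsupp i s hs')).mono Ioi_subset_Ici_self
      · have h1 := hscalar (U₀ b) (U b) (φ b) χ T X s (hfl b hb) hχ (hTs s hs') hsm (hg9 s hs')
          hN.le i
        have h2 := hC.lam_pos i
        set y := aa (psi i) R (φ b) T s with hy
        have hi' : |y| = A := hi
        have h3 : y * y = A * A := by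
          rw [← abs_mul_abs_self y, hi']
        have h4 : |(aS (psi i) R (φ b) T s - lam i * y) * y| < lam i * A * A := by
          rw [abs_mul, hi']
          exact mul_lt_mul_of_pos_right h1 hA
        have h5 := (abs_lt.1 h4).1
        have h6 : (aS (psi i) R (φ b) T s - lam i * y) * y =
            aS (psi i) R (φ b) T s * y - lam i * (y * y) := by ring
        rw [h6, h3] at h5
        show 0 < aS (psi i) R (φ b) T s * y
        linarith only [h5])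
  refine final_contra hR (hfl b hb) hTdef hX0 hX1 hη hα fun s hs => ?_
  exact (htrap b hb s hs fun s' hs' i => hball s' hs'.1 i).2


end

/-- Certificates + numbers + initial data give failure on arbitrarily short time intervals. -/
theorem failsBy_of_cert {R ρ : ℝ → ℝ} {psi : Fin 2 → ℝ → ℝ} {lam : Fin 2 → ℝ}
    {ν κ₁ κ₂ Rmin α z₀ rf E₃ δ κ C₀ e₁ e₂ Kr Kp Kq K₂ Kinf η M Ns A : ℝ}
    (hC : Cert R ρ psi lam ν κ₁ κ₂ Rmin α δ κ C₀ e₁ e₂ Kr Kp Kq K₂ Kinf z₀)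
    (hF : FarCert R ρ z₀ rf E₃)
    -- numbers of the far field
    (hη : 0 ≤ η) (hη2 : η ≤ 1 / 20) (hη3 : η ^ 2 ≤ 60 * M) (hM : 0 < M) (hNs : 0 < Ns)
    (hNsM : Ns / rf ≤ M / 4) (hKinf : Kinf * √Ns ≤ η)
    (hMη : 22 / 10 * √M < 79 / 100 * η) (hE : 1320000 * E₃ ≤ M / 16)
    (hA : 0 < A) (hα : α * (1 + η) < 1) (hα0 : 0 < α)
    -- numbers of the near field
    (hκη : η * (2 + η) ≤ κ)
    (hKK : Kinf ^ 2 * Ns * K₂ + η ^ 2 / 1000000 ≤ κ * δ / 8)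
    (hCq : 285 * C₀ * Kq ^ 2 * Ns ≤ δ)
    (hnum : (5 * C₀ * A ^ 2 + 2 / κ * e₁ ^ 2) / (7 / 4 * δ) ≤ 3 / 4 * Ns)
    (hscal : ∀ i, 4 / 3 * (Kr * √Ns + Kp * Ns) + e₂ < lam i * A)
    -- data, for every small `T`
    (hdata : ∀ (χ : ℝ → ℝ) (X c₁ : ℝ), Cutoff χ X → X ≤ 1 / 8 → exp (c₁ + 5 / 3) ≤ X / 2 →
      ∃ EA Z T₁ : ℝ, 0 < T₁ ∧ 0 ≤ EA ∧ ∀ s₀ : ℝ, exp (-s₀) ≤ T₁ →
        ∃ (CL : ℝ) (U₀ : (Fin 2 → ℝ) → ℝ → ℝ),
          DataFam χ R ρ psi (exp (-s₀)) s₀ z₀ c₁ A Ns M EA Z CL U₀) :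
    ∀ T₀ : ℝ, 0 < T₀ → ∃ T : ℝ, 0 < T ∧ T ≤ T₀ ∧ FailsBy 8 T := by
  have hRp : ∀ z, 0 < R z := fun z => hC.profile.Rmin_pos.trans_le (hC.profile.lower z)
  have hKr : 0 ≤ Kr := (integral_nonneg fun z => by
    have := hRp z
    (clear * - this; positivity)).trans (hC.H3r 0)
  have hbsq : ∀ z, 0 ≤ bsq ρ z := fun z => by
    unfold bsq
    exact integral_nonneg fun s => div_nonneg (sq_nonneg _) (hC.weight.pos s).le
  have hKp : 0 ≤ Kp := (integral_nonneg fun z =>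
    div_nonneg (mul_nonneg (abs_nonneg _) (hbsq z)) (hRp z).le).trans (hC.H3p 0)
  have hδ := hC.δ_pos
  have hκ := hC.κ_pos
  have hC0 := hC.C₀_nonneg
  have hη4 : η ≤ 1 / 4 := by linarith only [hη2]
  refine final_assembly_short (dd := 7 / 4 * δ) (CC := 5 / 2 * C₀) (Cε := 2 / κ) (by (clear * - hδ; positivity))
    (by (clear * - hC0; positivity)) hC hF ?_ ?_ hη hη2 hη3 hM hNs hNsM hKinf hMη hE hA (by positivity) ?_ hα hα0
    hdata
  · intro U₀ U φ χ T X s hφ hχ hs hsm hz hN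
    have h := energy_ineq hC hφ hχ hs hη hη4 hκη hKK hCq hN hsm hz
    linarith only [h]
  · intro U₀ U φ χ T X s hφ hχ hs hsm hz hN i
    have h := scalar_bound hC hφ hχ hs hη hη4 hsm hz i
    have h1 : √(NN ρ (GG χ R φ T s)) ≤ √Ns := sqrt_le_sqrt hN
    have h2 : Kr * √(NN ρ (GG χ R φ T s)) ≤ Kr * √Ns := mul_le_mul_of_nonneg_left h1 hKr
    have h3 : Kp * NN ρ (GG χ R φ T s) ≤ Kp * Ns := mul_le_mul_of_nonneg_left hN hKp
    have h4 := hscal i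
    linarith only [h4, h3, h2, h]
  · have : 2 * (5 / 2 * C₀) * A ^ 2 = 5 * C₀ * A ^ 2 := by ring
    rw [this]
    exact hnum


end P264.B

namespace P264.Prof

open P264.B

/-- **Failure of the one-dimensional flow on arbitrarily short time intervals.** -/
theorem failsBy8 : ∀ T₀ : ℝ, 0 < T₀ → ∃ T : ℝ, 0 < T ∧ T ≤ T₀ ∧ FailsBy 8 T := by
  have h3 : H3Block := P264.H3.h3block
  have hsq : √(25 / 10 ^ 9 : ℝ) ≤ 1582 / 10 ^ 7 := by
    rw [Real.sqrt_le_left (by norm_num)]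
    norm_num
  have hM : √(144 / 10 ^ 7 : ℝ) < 38 / 10 ^ 4 := by
    rw [Real.sqrt_lt' (by norm_num)]
    norm_num
  have hα := alpha8_bounds
  refine failsBy_of_cert (η := 12 / 1000) (M := 144 / 10 ^ 7) (Ns := 25 / 10 ^ 9)
    (A := 18 / 10 ^ 9) (cert8 h3) farCert8 (by norm_num) (by norm_num) (by norm_num)
    (by norm_num) (by norm_num) (by norm_num) ?_ ?_ (by norm_num) (by norm_num) ?_ ?_
    (by norm_num) (by norm_num) (by norm_num) (by norm_num) ?_ hdata8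
  · linarith only [hsq]
  · linarith only [hM]
  · linarith only [hα]
  · linarith only [hα]
  · intro i
    have := lam8_ge i
    linarith only [hsq, this]


end P264.Prof
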